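import Mathlib.Analysis.SpecialFunctions.Trigonometric.Deriv
import Mathlib.Analysis.SpecialFunctions.Trigonometric.ArctanDeriv
import Mathlib.Analysis.SpecialFunctions.Sqrt
import Mathlib.MeasureTheory.Integral.IntervalIntegral.FundThmCalculus
import Mathlib.MeasureTheory.Integral.IntervalIntegral.Periodic
import Mathlib.Analysis.Calculus.ContDiff.Deriv
import Mathlib.Analysis.Calculus.ContDiff.WithLp
import Mathlib.Analysis.Calculus.FDeriv.WithLp
import Mathlib.Analysis.InnerProductSpace.PiL2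

/-!
Circle-invariant metrics on the torus and isometric immersions into four-space.
-/

namespace Vale.Agent.P205

open Real Set MeasureTheory intervalIntegral Filter Topology
open scoped ContDiff

/-- A smooth `2π`-periodic function. -/
def SmoothPer (f : ℝ → ℝ) : Prop := ContDiff ℝ ∞ f ∧ Function.Periodic f (2 * π)

variable (E F G : ℝ → ℝ)

/-- `(det g)/G`. -/
noncomputable def dd (t : ℝ) : ℝ := E t - F t ^ 2 / G t

/-- The quantity to be distributed over the two phases. -/
noncomputable def yy (ε l t : ℝ) : ℝ :=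
  sqrt ((dd E F G t - ε * (deriv (fun s => sqrt (G s)) t ^ 2 + G t * (l * cos t) ^ 2)) / G t)

/-- First phase integral. -/
noncomputable def phi1 (ε u l : ℝ) : ℝ :=
  ∫ t in (0)..(2 * π), tan (u + l * sin t) * yy E F G ε l t

/-- Second phase integral. -/
noncomputable def phi2 (ε u l : ℝ) : ℝ :=
  ∫ t in (0)..(2 * π), yy E F G ε l t / tan (u + l * sin t)

/-- The admissible range of parameters. -/
def box : Set (ℝ × ℝ) := Icc (π / 8) (3 * π / 8) ×ˢ Icc 0 (π / 16)

theorem angle_mem {p : ℝ × ℝ} (hp : p ∈ box) (t : ℝ) :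
    π / 16 ≤ p.1 + p.2 * sin t ∧ p.1 + p.2 * sin t ≤ 7 * π / 16 := by
  obtain ⟨⟨h1, h2⟩, h3, h4⟩ := hp
  have ha := mul_le_mul_of_nonneg_left (neg_one_le_sin t) h3
  have hb := mul_le_mul_of_nonneg_left (sin_le_one t) h3
  constructor <;> linarith

theorem cos_pos_angle {p : ℝ × ℝ} (hp : p ∈ box) (t : ℝ) : 0 < cos (p.1 + p.2 * sin t) := by
  obtain ⟨h1, h2⟩ := angle_mem hp t
  exact cos_pos_of_mem_Ioo ⟨by linarith [pi_pos], by linarith [pi_pos]⟩

theorem sin_pos_angle {p : ℝ × ℝ} (hp : p ∈ box) (t : ℝ) : 0 < sin (p.1 + p.2 * sin t) := by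
  obtain ⟨h1, h2⟩ := angle_mem hp t
  exact sin_pos_of_pos_of_lt_pi (by linarith [pi_pos]) (by linarith [pi_pos])

theorem tan_pos_angle {p : ℝ × ℝ} (hp : p ∈ box) (t : ℝ) : 0 < tan (p.1 + p.2 * sin t) := by
  rw [tan_eq_sin_div_cos]
  exact div_pos (sin_pos_angle hp t) (cos_pos_angle hp t)

theorem contOn_tan : ContinuousOn (fun q : (ℝ × ℝ) × ℝ => tan (q.1.1 + q.1.2 * sin q.2))
    (box ×ˢ univ) := by
  simp only [tan_eq_sin_div_cos]
  exact ContinuousOn.div (by fun_prop) (by fun_prop) fun q hq => (cos_pos_angle hq.1 q.2).ne'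

theorem cont_tan {p : ℝ × ℝ} (hp : p ∈ box) : Continuous fun t => tan (p.1 + p.2 * sin t) := by
  simp only [tan_eq_sin_div_cos]
  exact Continuous.div (by fun_prop) (by fun_prop) fun t => (cos_pos_angle hp t).ne'

variable {E F G}

section
variable (hE : SmoothPer E) (hF : SmoothPer F) (hG : SmoothPer G) (hG0 : ∀ t, 0 < G t)
include hG hG0

theorem smooth_sqrtG : ContDiff ℝ ∞ fun s => sqrt (G s) := hG.1.sqrt fun t => (hG0 t).ne'

theorem cont_dsqrtG : Continuous (deriv fun s => sqrt (G s)) :=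
  (smooth_sqrtG hG hG0).continuous_deriv (by simp)

include hE hF

theorem cont_yy : Continuous fun q : (ℝ × ℝ) × ℝ => yy E F G q.1.1 q.1.2 q.2 := by
  have h1 : Continuous fun q : (ℝ × ℝ) × ℝ => dd E F G q.2 :=
    (hE.1.continuous.comp continuous_snd).sub
      (((hF.1.continuous.comp continuous_snd).pow 2).div (hG.1.continuous.comp continuous_snd)
        fun q => (hG0 q.2).ne')
  have h2 : Continuous fun q : (ℝ × ℝ) × ℝ => deriv (fun s => sqrt (G s)) q.2 :=
    (cont_dsqrtG hG hG0).comp continuous_snd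
  have h3 : Continuous fun q : (ℝ × ℝ) × ℝ => G q.2 := hG.1.continuous.comp continuous_snd
  refine continuous_sqrt.comp (Continuous.div ?_ h3 fun q => (hG0 q.2).ne')
  exact h1.sub ((continuous_fst.comp continuous_fst).mul ((h2.pow 2).add
    (h3.mul (((continuous_snd.comp continuous_fst).mul (continuous_cos.comp continuous_snd)).pow 2))))

theorem cont_yy_t (ε l : ℝ) : Continuous fun t => yy E F G ε l t :=
  (cont_yy hE hF hG hG0).comp
    (((continuous_const : Continuous fun _ : ℝ => ((ε, l) : ℝ × ℝ))).prodMk continuous_id)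

end

/-- Data of a circle-invariant Riemannian metric `E dt² + 2F dt dθ + G dθ²`. -/
structure Good (E F G : ℝ → ℝ) : Prop where
  hE : SmoothPer E
  hF : SmoothPer F
  hG : SmoothPer G
  posE : ∀ t, 0 < E t
  posDet : ∀ t, F t ^ 2 < E t * G t

theorem Good.posG (h : Good E F G) (t : ℝ) : 0 < G t := by
  nlinarith [h.posE t, h.posDet t, sq_nonneg (F t)]

theorem Good.posD (h : Good E F G) (t : ℝ) : 0 < dd E F G t := by
  rw [dd, sub_pos, div_lt_iff₀ (h.posG t)]; exact h.posDet t

theorem Good.contY (h : Good E F G) (ε l : ℝ) : Continuous fun t => yy E F G ε l t :=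
  cont_yy_t h.hE h.hF h.hG h.posG ε l

theorem Good.y0_pos (h : Good E F G) (t : ℝ) : 0 < yy E F G 0 0 t := by
  refine sqrt_pos.2 (div_pos ?_ (h.posG t))
  simpa using h.posD t

theorem yy_zero (l t : ℝ) : yy E F G 0 l t = yy E F G 0 0 t := by simp [yy]

theorem Good.y_le (h : Good E F G) {ε : ℝ} (hε : 0 ≤ ε) (l t : ℝ) :
    yy E F G ε l t ≤ yy E F G 0 0 t := by
  refine sqrt_le_sqrt (div_le_div_of_nonneg_right ?_ (h.posG t).le)
  have : 0 ≤ ε * (deriv (fun s => sqrt (G s)) t ^ 2 + G t * (l * cos t) ^ 2) :=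
    mul_nonneg hε (add_nonneg (sq_nonneg _) (mul_nonneg (h.posG t).le (sq_nonneg _)))
  linarith

/-- Uniform smallness of the correction. -/
theorem Good.y_ge (h : Good E F G) {η : ℝ} (hη : 0 < η) (hη1 : η < 1) :
    ∃ ε0 > 0, ∀ ε, 0 ≤ ε → ε ≤ ε0 → ∀ l ∈ Icc (0 : ℝ) (π / 16), ∀ t ∈ Icc (0 : ℝ) (2 * π),
      (1 - η) * yy E F G 0 0 t ≤ yy E F G ε l t := by
  set R : ℝ → ℝ := fun t => (deriv (fun s => sqrt (G s)) t ^ 2 + G t * (π / 16) ^ 2) / dd E F G t
  have hR : Continuous R := by
    have h1 := cont_dsqrtG h.hG h.posG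
    have h2 := h.hG.1.continuous
    have h3 : Continuous (dd E F G) :=
      h.hE.1.continuous.sub ((h.hF.1.continuous.pow 2).div h2 fun t => (h.posG t).ne')
    exact Continuous.div (by fun_prop) h3 fun t => (h.posD t).ne'
  obtain ⟨M, hM⟩ := (isCompact_Icc (a := (0 : ℝ)) (b := 2 * π)).bddAbove_image hR.continuousOn
  refine ⟨η / (max M 1), by positivity, fun ε h0 hle l hl t ht => ?_⟩
  have hRM : R t ≤ max M 1 := (hM ⟨t, ht, rfl⟩).trans (le_max_left _ _)
  have hR0 : 0 ≤ R t :=
    div_nonneg (add_nonneg (sq_nonneg _) (mul_nonneg (h.posG t).le (sq_nonneg _))) (h.posD t).le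
  have hεR : ε * R t ≤ η := by
    calc ε * R t ≤ η / max M 1 * max M 1 := mul_le_mul hle hRM hR0 (by positivity)
      _ = η := div_mul_cancel₀ _ (by positivity)
  have hd := h.posD t
  have hkey : ε * (deriv (fun s => sqrt (G s)) t ^ 2 + G t * (l * cos t) ^ 2) ≤ η * dd E F G t := by
    have h1 : (l * cos t) ^ 2 ≤ (π / 16) ^ 2 := by
      rw [mul_pow]
      exact (mul_le_of_le_one_right (sq_nonneg l) (cos_sq_le_one t)).trans
        (pow_le_pow_left₀ hl.1 hl.2 2)
    calc ε * (deriv (fun s => sqrt (G s)) t ^ 2 + G t * (l * cos t) ^ 2)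
        ≤ ε * (deriv (fun s => sqrt (G s)) t ^ 2 + G t * (π / 16) ^ 2) := by
          have := h.posG t
          gcongr
      _ = ε * R t * dd E F G t := by simp only [R]; field_simp
      _ ≤ η * dd E F G t := mul_le_mul_of_nonneg_right hεR hd.le
  unfold yy
  rw [zero_mul, sub_zero, ← sqrt_sq (show 0 ≤ 1 - η by linarith), ← sqrt_mul (sq_nonneg _)]
  refine sqrt_le_sqrt ?_
  rw [← mul_div_assoc]
  refine div_le_div_of_nonneg_right ?_ (h.posG t).le
  nlinarith [mul_nonneg (mul_nonneg hη.le (sub_nonneg.2 hη1.le)) hd.le]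

theorem Good.cont_phi (h : Good E F G) (ε : ℝ) :
    Continuous (fun p : box => phi1 E F G ε p.1.1 p.1.2) ∧
      Continuous (fun p : box => phi2 E F G ε p.1.1 p.1.2) := by
  have ht : Continuous fun q : box × ℝ => tan (q.1.1.1 + q.1.1.2 * sin q.2) := by
    simp only [tan_eq_sin_div_cos]
    exact Continuous.div (by fun_prop) (by fun_prop) fun q => (cos_pos_angle q.1.2 q.2).ne'
  have hy : Continuous fun q : box × ℝ => yy E F G ε q.1.1.2 q.2 :=
    (cont_yy h.hE h.hF h.hG h.posG).comp
      ((continuous_const.prodMk (continuous_snd.comp (continuous_subtype_val.comp continuous_fst))).prodMk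
        continuous_snd)
  refine ⟨?_, ?_⟩
  · have hc := continuous_parametric_primitive_of_continuous (a₀ := (0 : ℝ)) (μ := volume)
      (f := fun (p : box) t => tan (p.1.1 + p.1.2 * sin t) * yy E F G ε p.1.2 t) (ht.mul hy)
    have h2 := hc.comp ((continuous_id (X := box)).prodMk (continuous_const (y := 2 * π)))
    simpa only [Function.comp_def, phi1, id] using h2
  · have hc := continuous_parametric_primitive_of_continuous (a₀ := (0 : ℝ)) (μ := volume)
      (f := fun (p : box) t => yy E F G ε p.1.2 t / tan (p.1.1 + p.1.2 * sin t))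
      (hy.div ht fun q => (tan_pos_angle q.1.2 q.2).ne')
    have h2 := hc.comp ((continuous_id (X := box)).prodMk (continuous_const (y := 2 * π)))
    simpa only [Function.comp_def, phi2, id] using h2

theorem Good.int1 (h : Good E F G) (ε : ℝ) {p : ℝ × ℝ} (hp : p ∈ box) (a b : ℝ) :
    IntervalIntegrable (fun t => tan (p.1 + p.2 * sin t) * yy E F G ε p.2 t) volume a b :=
  ((cont_tan hp).mul (h.contY ε p.2)).intervalIntegrable a b

theorem Good.int2 (h : Good E F G) (ε : ℝ) {p : ℝ × ℝ} (hp : p ∈ box) (a b : ℝ) :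
    IntervalIntegrable (fun t => yy E F G ε p.2 t / tan (p.1 + p.2 * sin t)) volume a b :=
  ((h.contY ε p.2).div (cont_tan hp) fun t => (tan_pos_angle hp t).ne').intervalIntegrable a b

/-- The strict Cauchy-Schwarz inequality used to gain room. -/
theorem Good.product_gt (h : Good E F G) {u : ℝ} (hu : u ∈ Icc (π / 8) (3 * π / 8)) :
    (∫ t in (0)..(2 * π), yy E F G 0 0 t) ^ 2
      < phi1 E F G 0 u (π / 16) * phi2 E F G 0 u (π / 16) := by
  have hp : (u, π / 16) ∈ box := ⟨hu, ⟨by positivity, le_rfl⟩⟩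
  set τ : ℝ → ℝ := fun t => tan (u + π / 16 * sin t)
  set y : ℝ → ℝ := fun t => yy E F G 0 0 t
  have hτ : Continuous τ := by
    have := cont_tan (p := (u, π / 16)) hp
    simpa only [τ] using this
  have hτ0 : ∀ t, 0 < τ t := fun t => by
    have := tan_pos_angle (p := (u, π / 16)) hp t
    simpa only [τ] using this
  have hy : Continuous y := h.contY 0 0
  have hy0 : ∀ t, 0 < y t := h.y0_pos
  have hJ : 0 < ∫ t in (0)..(2 * π), y t :=
    intervalIntegral.integral_pos (by positivity) hy.continuousOn (fun t _ => (hy0 t).le)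
      ⟨0, ⟨le_rfl, by positivity⟩, hy0 0⟩
  have e1 : phi1 E F G 0 u (π / 16) = ∫ t in (0)..(2 * π), τ t * y t := by
    simp only [phi1, yy_zero (E := E) (F := F) (G := G) (π / 16), τ, y]
  have e2 : phi2 E F G 0 u (π / 16) = ∫ t in (0)..(2 * π), y t / τ t := by
    simp only [phi2, yy_zero (E := E) (F := F) (G := G) (π / 16), τ, y]
  rw [e1, e2]
  set J := ∫ t in (0)..(2 * π), y t
  set B := ∫ t in (0)..(2 * π), y t / τ t
  have hB : 0 < B :=
    intervalIntegral.integral_pos (by positivity) (hy.div hτ fun t => (hτ0 t).ne').continuousOn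
      (fun t _ => (div_pos (hy0 t) (hτ0 t)).le) ⟨0, ⟨le_rfl, by positivity⟩, div_pos (hy0 0) (hτ0 0)⟩
  set c := J / B
  have hne : τ 0 ≠ τ (π / 2) := by
    simp only [τ, sin_zero, mul_zero, add_zero, sin_pi_div_two, mul_one]
    exact (tan_lt_tan_of_nonneg_of_lt_pi_div_two (by linarith [hu.1, pi_pos])
      (by linarith [hu.2, pi_pos]) (by linarith [pi_pos])).ne
  have hex : ∃ t ∈ Icc (0 : ℝ) (2 * π), τ t ≠ c := by
    by_cases h0 : τ 0 = c
    · exact ⟨π / 2, ⟨by positivity, by linarith [pi_pos]⟩, fun e => hne (h0.trans e.symm)⟩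
    · exact ⟨0, ⟨le_rfl, by positivity⟩, h0⟩
  obtain ⟨t0, ht0, ht1⟩ := hex
  have hi1 : IntervalIntegrable (fun t => τ t * y t) volume 0 (2 * π) :=
    (hτ.mul hy).intervalIntegrable _ _
  have hi2 : IntervalIntegrable (fun t => c ^ 2 * (y t / τ t)) volume 0 (2 * π) :=
    (continuous_const.mul (hy.div hτ fun t => (hτ0 t).ne')).intervalIntegrable _ _
  have hi3 : IntervalIntegrable (fun t => 2 * c * y t) volume 0 (2 * π) :=
    (continuous_const.mul hy).intervalIntegrable _ _
  have hpos : 0 < ∫ t in (0)..(2 * π), (τ t - c) ^ 2 * y t / τ t :=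
    intervalIntegral.integral_pos (by positivity)
      (Continuous.continuousOn (Continuous.div (by fun_prop) hτ fun t => (hτ0 t).ne'))
      (fun t _ => div_nonneg (mul_nonneg (sq_nonneg _) (hy0 t).le) (hτ0 t).le)
      ⟨t0, ht0, div_pos (mul_pos (pow_two_pos_of_ne_zero (sub_ne_zero.2 ht1)) (hy0 t0)) (hτ0 t0)⟩
  rw [intervalIntegral.integral_congr (g := fun t => τ t * y t + c ^ 2 * (y t / τ t) - 2 * c * y t)
    fun t _ => by have := (hτ0 t).ne'; field_simp; ring,
    intervalIntegral.integral_sub (hi1.add hi2) hi3, intervalIntegral.integral_add hi1 hi2,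
    intervalIntegral.integral_const_mul, intervalIntegral.integral_const_mul] at hpos
  have hc : c * B = J := div_mul_cancel₀ _ hB.ne'
  have h2 := mul_pos hpos hB
  have e : c ^ 2 * B * B = J ^ 2 := by rw [← hc]; ring
  have e' : 2 * c * J * B = 2 * J ^ 2 := by
    rw [show 2 * c * J * B = 2 * (c * B) * J from by ring, hc]; ring
  nlinarith

/-- Both phase conditions can be met for some large winding number. -/
theorem Good.exists_params (h : Good E F G) :
    ∃ k : ℕ, 0 < k ∧ ∃ p ∈ box, ∃ a b : ℤ,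
      (∀ t, 0 < dd E F G t - ((k : ℝ) ^ 2)⁻¹ *
        (deriv (fun s => sqrt (G s)) t ^ 2 + G t * (p.2 * cos t) ^ 2)) ∧
      (k : ℝ) * ((∫ t in (0)..(2 * π), F t / G t) + phi1 E F G ((k : ℝ) ^ 2)⁻¹ p.1 p.2)
        = 2 * π * a ∧
      (k : ℝ) * ((∫ t in (0)..(2 * π), F t / G t) - phi2 E F G ((k : ℝ) ^ 2)⁻¹ p.1 p.2)
        = 2 * π * b := by
  set I := ∫ t in (0)..(2 * π), F t / G t
  set J := ∫ t in (0)..(2 * π), yy E F G 0 0 t with hJdef
  have h2π : (0 : ℝ) < 2 * π := by positivity
  have hJ : 0 < J := intervalIntegral.integral_pos h2π (h.contY 0 0).continuousOn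
    (fun t _ => (h.y0_pos t).le) ⟨0, ⟨le_rfl, h2π.le⟩, h.y0_pos 0⟩
  -- the gain
  obtain ⟨γ, hγ1, hγ⟩ : ∃ γ > 1, ∀ u ∈ Icc (π / 8) (3 * π / 8),
      γ * J ^ 2 ≤ phi1 E F G 0 u (π / 16) * phi2 E F G 0 u (π / 16) := by
    obtain ⟨hc1, hc2⟩ := h.cont_phi 0
    set emb : Icc (π / 8) (3 * π / 8) → box := fun u => ⟨(u.1, π / 16), u.2, ⟨by positivity, le_rfl⟩⟩
    have hemb : Continuous emb := Continuous.subtype_mk (by fun_prop) _
    have hP := (hc1.comp hemb).mul (hc2.comp hemb)
    haveI : Nonempty (Icc (π / 8) (3 * π / 8)) := ⟨⟨π / 8, le_rfl, by linarith [pi_pos]⟩⟩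
    obtain ⟨u0, -, hu0⟩ := isCompact_univ.exists_isMinOn univ_nonempty hP.continuousOn
    refine ⟨phi1 E F G 0 u0.1 (π / 16) * phi2 E F G 0 u0.1 (π / 16) / J ^ 2, ?_, fun u hu => ?_⟩
    · rw [gt_iff_lt, one_lt_div (by positivity)]; exact h.product_gt u0.2
    · rw [div_mul_cancel₀ _ (by positivity)]
      have := isMinOn_iff.1 hu0 ⟨u, hu⟩ (mem_univ _)
      simpa only [emb, Function.comp_apply, Pi.mul_apply] using this
  -- the tangent margins
  have hpa : tan (3 * π / 16) < 1 := by
    rw [← tan_pi_div_four]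
    exact tan_lt_tan_of_nonneg_of_lt_pi_div_two (by positivity) (by linarith [pi_pos])
      (by linarith [pi_pos])
  have hpb : 1 < tan (5 * π / 16) := by
    rw [← tan_pi_div_four]
    exact tan_lt_tan_of_nonneg_of_lt_pi_div_two (by positivity) (by linarith [pi_pos])
      (by linarith [pi_pos])
  -- choose the error
  obtain ⟨η, hη0, hη1, hηg, hηt⟩ : ∃ η : ℝ, 0 < η ∧ η < 1 ∧ 1 < (1 - η) ^ 2 * γ ∧
      1 < (1 - η) * tan (5 * π / 16) := by
    have h1 : Tendsto (fun η : ℝ => (1 - η) ^ 2 * γ) (𝓝[>] 0) (𝓝 γ) :=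
      ((Continuous.tendsto' (by fun_prop) 0 γ (by simp))).mono_left nhdsWithin_le_nhds
    have h2 : Tendsto (fun η : ℝ => (1 - η) * tan (5 * π / 16)) (𝓝[>] 0) (𝓝 (tan (5 * π / 16))) :=
      ((Continuous.tendsto' (by fun_prop) 0 _ (by simp))).mono_left nhdsWithin_le_nhds
    obtain ⟨η, ⟨⟨hη0, hη1⟩, ha⟩, hb⟩ := ((((show ∀ᶠ η : ℝ in 𝓝[>] 0, η ∈ Ioo (0 : ℝ) 1 from Ioo_mem_nhdsGT one_pos)).and
      (h1.eventually_const_lt hγ1)).and (h2.eventually_const_lt hpb)).exists
    exact ⟨η, hη0, hη1, ha, hb⟩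
  obtain ⟨ε0, hε0, hge⟩ := h.y_ge hη0 hη1
  -- a second, cruder, uniform positivity statement for all `t`
  have hposper : ∀ ε, 0 ≤ ε → ε ≤ ε0 → ∀ l ∈ Icc (0 : ℝ) (π / 16), ∀ t,
      0 < dd E F G t - ε * (deriv (fun s => sqrt (G s)) t ^ 2 + G t * (l * cos t) ^ 2) := by
    intro ε h0 h1 l hl t
    have hg : Function.Periodic (fun t => dd E F G t
        - ε * (deriv (fun s => sqrt (G s)) t ^ 2 + G t * (l * cos t) ^ 2)) (2 * π) := by
      intro t
      have hd : deriv (fun s => sqrt (G s)) (t + 2 * π) = deriv (fun s => sqrt (G s)) t := by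
        rw [← deriv_comp_add_const]
        congr 1
        funext s; rw [h.hG.2 s]
      simp only [dd, h.hE.2 t, h.hF.2 t, h.hG.2 t, hd, cos_periodic t]
    obtain ⟨s, hs, hts⟩ := hg.exists_mem_Ico₀ h2π t
    rw [hts]
    have hy : 0 < yy E F G ε l s :=
      lt_of_lt_of_le (mul_pos (by linarith) (h.y0_pos s)) (hge ε h0 h1 l hl s ⟨hs.1, hs.2.le⟩)
    have := sqrt_pos.1 hy
    rwa [div_pos_iff_of_pos_right (h.posG s)] at this
  -- choose k
  have hlim : Tendsto (fun k : ℕ => 2 * π / (k : ℝ)) atTop (𝓝 0) :=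
    tendsto_const_div_atTop_nhds_zero_nat _
  have hlimsq : Tendsto (fun k : ℕ => ((k : ℝ) ^ 2)⁻¹) atTop (𝓝 0) :=
    tendsto_inv_atTop_zero.comp ((tendsto_pow_atTop two_ne_zero).comp tendsto_natCast_atTop_atTop)
  have hl1 : Tendsto (fun k : ℕ => (J + 2 * π / (k : ℝ))) atTop (𝓝 J) := by
    simpa using hlim.const_add J
  have hl2 : Tendsto (fun k : ℕ => (J + 2 * π / (k : ℝ)) ^ 2) atTop (𝓝 (J ^ 2)) := hl1.pow 2
  obtain ⟨k, ⟨⟨hk0, hkε⟩, hk1⟩, hk2⟩ := ((((eventually_gt_atTop 0).and
    (hlimsq.eventually_le_const hε0)).and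
    (hl1.eventually_le_const (show J < (1 - η) * tan (5 * π / 16) * J by nlinarith))).and
    (hl2.eventually_le_const (show J ^ 2 < (1 - η) ^ 2 * γ * J ^ 2 by
      nlinarith [show 0 < J ^ 2 by positivity]))).exists
  have hk : (0 : ℝ) < k := by exact_mod_cast hk0
  set ε := ((k : ℝ) ^ 2)⁻¹
  have hε : 0 ≤ ε := by positivity
  set a : ℤ := ⌈(k : ℝ) * (I + J) / (2 * π)⌉
  set b : ℤ := ⌊(k : ℝ) * (I - J) / (2 * π)⌋
  set P : ℝ := 2 * π * a / k - I with hP
  set Q : ℝ := I - 2 * π * b / k with hQ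
  have hP1 : J ≤ P := by
    have := Int.le_ceil ((k : ℝ) * (I + J) / (2 * π))
    rw [div_le_iff₀ h2π] at this
    rw [hP, le_sub_iff_add_le, le_div_iff₀ hk]; linarith
  have hP2 : P ≤ J + 2 * π / k := by
    have := Int.ceil_lt_add_one ((k : ℝ) * (I + J) / (2 * π))
    rw [← sub_lt_iff_lt_add, lt_div_iff₀ h2π] at this
    rw [hP, sub_le_iff_le_add, div_le_iff₀ hk, add_mul, add_mul, div_mul_cancel₀ _ hk.ne']
    nlinarith
  have hQ1 : J ≤ Q := by
    have := Int.floor_le ((k : ℝ) * (I - J) / (2 * π))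
    rw [le_div_iff₀ h2π] at this
    rw [hQ, le_sub_comm, div_le_iff₀ hk]; linarith
  have hQ2 : Q ≤ J + 2 * π / k := by
    have := Int.lt_floor_add_one ((k : ℝ) * (I - J) / (2 * π))
    rw [div_lt_iff₀ h2π] at this
    rw [hQ, sub_le_comm, le_div_iff₀ hk, sub_mul, add_mul, div_mul_cancel₀ _ hk.ne']
    nlinarith
  obtain ⟨hc1, hc2⟩ := h.cont_phi ε
  -- the root of the first condition
  have hroot : ∀ l ∈ Icc (0 : ℝ) (π / 16), ∃ u ∈ Icc (π / 8) (3 * π / 8),
      phi1 E F G ε u l = P := by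
    intro l hl
    have hcont : ContinuousOn (fun u => phi1 E F G ε u l) (Icc (π / 8) (3 * π / 8)) := by
      rw [continuousOn_iff_continuous_domRestrict]
      exact hc1.comp (f := fun u : Icc (π / 8) (3 * π / 8) => (⟨(u.1, l), u.2, hl⟩ : box))
        (Continuous.subtype_mk (by fun_prop) _)
    refine intermediate_value_Icc (by linarith [pi_pos]) hcont ⟨?_, ?_⟩
    · have hp : (π / 8, l) ∈ box := ⟨⟨le_rfl, by linarith [pi_pos]⟩, hl⟩
      calc phi1 E F G ε (π / 8) l ≤ ∫ t in (0)..(2 * π), 1 * yy E F G 0 0 t := by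
            refine intervalIntegral.integral_mono_on h2π.le (h.int1 ε hp _ _)
              ((continuous_const.mul (h.contY 0 0)).intervalIntegrable _ _) fun t _ => ?_
            refine mul_le_mul ?_ (h.y_le hε l t) (sqrt_nonneg _) zero_le_one
            refine le_trans ?_ hpa.le
            obtain ⟨h1, h2⟩ := angle_mem hp t
            simp only at h1 h2
            refine (strictMonoOn_tan.monotoneOn ?_ ?_ ?_)
            · exact ⟨by linarith [pi_pos], by linarith [pi_pos]⟩
            · exact ⟨by linarith [pi_pos], by linarith [pi_pos]⟩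
            · have := mul_le_mul_of_nonneg_left (sin_le_one t) hl.1
              linarith [hl.2]
        _ ≤ P := by simpa using hP1
    · have hp : (3 * π / 8, l) ∈ box := ⟨⟨by linarith [pi_pos], le_rfl⟩, hl⟩
      calc P ≤ (1 - η) * tan (5 * π / 16) * J := hP2.trans hk1
        _ = ∫ t in (0)..(2 * π), (1 - η) * tan (5 * π / 16) * yy E F G 0 0 t := by
            rw [intervalIntegral.integral_const_mul]
        _ ≤ phi1 E F G ε (3 * π / 8) l := by
            refine intervalIntegral.integral_mono_on h2π.le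
              ((continuous_const.mul (h.contY 0 0)).intervalIntegrable _ _) (h.int1 ε hp _ _)
              fun t ht => ?_
            rw [mul_comm (1 - η), mul_assoc]
            refine mul_le_mul ?_ (hge ε hε hkε l hl t ht)
              (mul_nonneg (by linarith) (h.y0_pos t).le) (tan_pos_angle hp t).le
            obtain ⟨h1, h2⟩ := angle_mem hp t
            simp only at h1 h2
            refine (strictMonoOn_tan.monotoneOn ?_ ?_ ?_)
            · exact ⟨by linarith [pi_pos], by linarith [pi_pos]⟩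
            · exact ⟨by linarith [pi_pos], by linarith [pi_pos]⟩
            · have := mul_le_mul_of_nonneg_left (neg_one_le_sin t) hl.1
              linarith [hl.2]
  choose! U hU hUP using hroot
  -- the root is unique, hence depends continuously on `l`
  have hmono : ∀ l ∈ Icc (0 : ℝ) (π / 16), ∀ u v, u ∈ Icc (π / 8) (3 * π / 8) →
      v ∈ Icc (π / 8) (3 * π / 8) → u < v → phi1 E F G ε u l < phi1 E F G ε v l := by
    intro l hl u v hu hv huv
    have hlt : ∀ t ∈ Icc (0 : ℝ) (2 * π),
        tan (u + l * sin t) * yy E F G ε l t < tan (v + l * sin t) * yy E F G ε l t := by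
      intro t ht
      refine mul_lt_mul_of_pos_right ?_
        (lt_of_lt_of_le (mul_pos (by linarith) (h.y0_pos t)) (hge ε hε hkε l hl t ht))
      obtain ⟨h1, -⟩ := angle_mem (show (u, l) ∈ box from ⟨hu, hl⟩) t
      obtain ⟨-, h2⟩ := angle_mem (show (v, l) ∈ box from ⟨hv, hl⟩) t
      simp only at h1 h2
      exact tan_lt_tan_of_nonneg_of_lt_pi_div_two (by linarith [pi_pos]) (by linarith [pi_pos])
        (by linarith)
    exact integral_lt_integral_of_continuousOn_of_le_of_exists_lt h2π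
      ((cont_tan (p := (u, l)) ⟨hu, hl⟩).mul (h.contY ε l)).continuousOn
      ((cont_tan (p := (v, l)) ⟨hv, hl⟩).mul (h.contY ε l)).continuousOn
      (fun t ht => (hlt t (Ioc_subset_Icc_self ht)).le) ⟨0, ⟨le_rfl, h2π.le⟩, hlt 0 ⟨le_rfl, h2π.le⟩⟩
  have hUcont : ContinuousOn U (Icc (0 : ℝ) (π / 16)) := by
    intro l hl
    refine tendsto_order.2 ⟨fun c hc => ?_, fun c hc => ?_⟩
    · by_cases hc8 : c < π / 8
      · filter_upwards [self_mem_nhdsWithin] with m hm
        exact lt_of_lt_of_le hc8 (hU m hm).1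
      · have hcI : c ∈ Icc (π / 8) (3 * π / 8) := ⟨not_lt.1 hc8, hc.le.trans (hU l hl).2⟩
        have h1 : phi1 E F G ε c l < P := hUP l hl ▸ hmono l hl c (U l) hcI (hU l hl) hc
        have h2 : ContinuousOn (fun m => phi1 E F G ε c m) (Icc (0 : ℝ) (π / 16)) := by
          rw [continuousOn_iff_continuous_domRestrict]
          exact hc1.comp (f := fun m : Icc (0 : ℝ) (π / 16) => (⟨(c, m.1), hcI, m.2⟩ : box))
            (Continuous.subtype_mk (by fun_prop) _)
        filter_upwards [(h2 l hl).eventually_lt_const h1, self_mem_nhdsWithin] with m hm hm'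
        by_contra hcon
        rcases (not_lt.1 hcon).eq_or_lt with e | e
        · rw [← e, hUP m hm'] at hm; exact lt_irrefl _ hm
        · have := hmono m hm' _ _ (hU m hm') hcI e
          rw [hUP m hm'] at this; linarith
    · by_cases hc8 : 3 * π / 8 < c
      · filter_upwards [self_mem_nhdsWithin] with m hm
        exact lt_of_le_of_lt (hU m hm).2 hc8
      · have hcI : c ∈ Icc (π / 8) (3 * π / 8) := ⟨(hU l hl).1.trans hc.le, not_lt.1 hc8⟩
        have h1 : P < phi1 E F G ε c l := hUP l hl ▸ hmono l hl (U l) c (hU l hl) hcI hc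
        have h2 : ContinuousOn (fun m => phi1 E F G ε c m) (Icc (0 : ℝ) (π / 16)) := by
          rw [continuousOn_iff_continuous_domRestrict]
          exact hc1.comp (f := fun m : Icc (0 : ℝ) (π / 16) => (⟨(c, m.1), hcI, m.2⟩ : box))
            (Continuous.subtype_mk (by fun_prop) _)
        filter_upwards [(h2 l hl).eventually_const_lt h1, self_mem_nhdsWithin] with m hm hm'
        by_contra hcon
        rcases (not_lt.1 hcon).eq_or_lt with e | e
        · rw [e, hUP m hm'] at hm; exact lt_irrefl _ hm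
        · have := hmono m hm' _ _ hcI (hU m hm') e
          rw [hUP m hm'] at this; linarith
  -- the second condition
  have hc : ContinuousOn (fun l => phi2 E F G ε (U l) l) (Icc (0 : ℝ) (π / 16)) := by
    rw [continuousOn_iff_continuous_domRestrict]
    exact hc2.comp (f := fun l : Icc (0 : ℝ) (π / 16) => (⟨(U l.1, l.1), hU l.1 l.2, l.2⟩ : box))
      (Continuous.subtype_mk ((hUcont.domRestrict).prodMk continuous_subtype_val) _)
  have hlI : (π / 16) ∈ Icc (0 : ℝ) (π / 16) := ⟨by positivity, le_rfl⟩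
  have h0I : (0 : ℝ) ∈ Icc (0 : ℝ) (π / 16) := ⟨le_rfl, by positivity⟩
  have hPpos : 0 < P := by linarith
  have hq0 : phi2 E F G ε (U 0) 0 ≤ Q := by
    have e1 : phi1 E F G ε (U 0) 0 = tan (U 0) * ∫ t in (0)..(2 * π), yy E F G ε 0 t := by
      simp [phi1, intervalIntegral.integral_const_mul]
    have e2 : phi2 E F G ε (U 0) 0 = (∫ t in (0)..(2 * π), yy E F G ε 0 t) / tan (U 0) := by
      simp [phi2, intervalIntegral.integral_div]
    have ht : 0 < tan (U 0) := by simpa using tan_pos_angle (show (U 0, 0) ∈ box from ⟨hU 0 h0I, h0I⟩) 0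
    have hJk : (∫ t in (0)..(2 * π), yy E F G ε 0 t) ≤ J :=
      intervalIntegral.integral_mono_on h2π.le ((h.contY ε 0).intervalIntegrable _ _)
        ((h.contY 0 0).intervalIntegrable _ _) fun t _ => h.y_le hε 0 t
    rw [e2]
    have hT := hUP 0 h0I
    rw [e1] at hT
    refine le_trans ?_ hQ1
    rw [div_le_iff₀ ht]
    refine hJk.trans ?_
    refine le_mul_of_one_le_right hJ.le ?_
    by_contra hlt
    have := mul_lt_mul_of_pos_right (not_le.1 hlt) hJ
    nlinarith [mul_le_mul_of_nonneg_left hJk ht.le]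
  have hq1 : Q ≤ phi2 E F G ε (U (π / 16)) (π / 16) := by
    set u := U (π / 16)
    have hp : (u, π / 16) ∈ box := ⟨hU _ hlI, hlI⟩
    have hA : (1 - η) * phi1 E F G 0 u (π / 16) ≤ phi1 E F G ε u (π / 16) := by
      rw [phi1, phi1, ← intervalIntegral.integral_const_mul]
      refine intervalIntegral.integral_mono_on h2π.le ((h.int1 0 hp _ _).const_mul _) (h.int1 ε hp _ _)
        fun t ht => ?_
      rw [yy_zero, mul_left_comm]
      exact mul_le_mul_of_nonneg_left (hge ε hε hkε _ hlI t ht) (tan_pos_angle hp t).le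
    have hB : (1 - η) * phi2 E F G 0 u (π / 16) ≤ phi2 E F G ε u (π / 16) := by
      rw [phi2, phi2, ← intervalIntegral.integral_const_mul]
      refine intervalIntegral.integral_mono_on h2π.le ((h.int2 0 hp _ _).const_mul _) (h.int2 ε hp _ _)
        fun t ht => ?_
      rw [yy_zero, ← mul_div_assoc]
      exact div_le_div_of_nonneg_right (hge ε hε hkε _ hlI t ht) (tan_pos_angle hp t).le
    have hA0 : 0 ≤ phi1 E F G 0 u (π / 16) := intervalIntegral.integral_nonneg h2π.le
      fun t _ => mul_nonneg (tan_pos_angle hp t).le (sqrt_nonneg _)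
    have hB0 : 0 ≤ phi2 E F G 0 u (π / 16) := intervalIntegral.integral_nonneg h2π.le
      fun t _ => div_nonneg (sqrt_nonneg _) (tan_pos_angle hp t).le
    have hAB := mul_le_mul hA hB (mul_nonneg (by linarith) hB0)
      ((mul_nonneg (by linarith) hA0).trans hA)
    rw [hUP _ hlI] at hAB
    have hg := mul_le_mul_of_nonneg_left (hγ u (hU _ hlI)) (sq_nonneg (1 - η))
    refine le_of_mul_le_mul_left ?_ hPpos
    have hPQ : P * Q ≤ (J + 2 * π / k) ^ 2 := by
      rw [pow_two]; exact mul_le_mul hP2 hQ2 (by linarith) (by positivity)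
    linarith [hk2]
  obtain ⟨l, hl, hlQ⟩ := intermediate_value_Icc (by positivity) hc ⟨hq0, hq1⟩
  simp only at hlQ
  refine ⟨k, hk0, (U l, l), ⟨hU l hl, hl⟩, a, b, hposper ε hε hkε l hl, ?_, ?_⟩
  · rw [hUP l hl, hP]; field_simp; ring
  · rw [hlQ, hQ]; field_simp; ring

/-- The phase with derivative `k (F/G + x Y)`. -/
noncomputable def phase (f : ℝ → ℝ) (t : ℝ) : ℝ := ∫ s in (0)..t, f s

theorem hasDerivAt_phase {f : ℝ → ℝ} (hf : Continuous f) (t : ℝ) :
    HasDerivAt (phase f) (f t) t :=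
  intervalIntegral.integral_hasDerivAt_right (hf.intervalIntegrable _ _)
    (hf.stronglyMeasurableAtFilter _ _) hf.continuousAt

theorem smooth_phase {f : ℝ → ℝ} (hf : ContDiff ℝ ∞ f) : ContDiff ℝ ∞ (phase f) := by
  rw [contDiff_infty_iff_deriv]
  refine ⟨fun t => (hasDerivAt_phase hf.continuous t).differentiableAt, ?_⟩
  rwa [show deriv (phase f) = f from funext fun t => (hasDerivAt_phase hf.continuous t).deriv]

theorem phase_add_period {f : ℝ → ℝ} (hf : Continuous f) (hp : Function.Periodic f (2 * π))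
    (t : ℝ) : phase f (t + 2 * π) = phase f t + ∫ s in (0)..(2 * π), f s := by
  unfold phase
  rw [← intervalIntegral.integral_add_adjacent_intervals (hf.intervalIntegrable 0 t)
    (hf.intervalIntegrable t (t + 2 * π)), hp.intervalIntegral_add_eq t 0, zero_add]

/-- The immersion. -/
noncomputable def immersion (r s α β : ℝ → ℝ) (k : ℝ) (x : ℝ × ℝ) : EuclideanSpace ℝ (Fin 4) :=
  WithLp.toLp 2 ![r x.1 * cos (k * x.2 + α x.1), r x.1 * sin (k * x.2 + α x.1),
    s x.1 * cos (k * x.2 + β x.1), s x.1 * sin (k * x.2 + β x.1)]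

/-- Every circle-invariant metric on the torus is induced by a smooth map into four-space. -/
theorem exists_immersion (h : Good E F G) :
    ∃ Φ : ℝ × ℝ → EuclideanSpace ℝ (Fin 4), ContDiff ℝ ∞ Φ ∧
      (∀ t θ, Φ (t + 2 * π, θ) = Φ (t, θ) ∧ Φ (t, θ + 2 * π) = Φ (t, θ)) ∧
      ∀ t θ v w : ℝ, ∀ v' w' : ℝ,
        inner ℝ (fderiv ℝ Φ (t, θ) (v, v')) (fderiv ℝ Φ (t, θ) (w, w'))
          = E t * (v * w) + F t * (v * w' + v' * w) + G t * (v' * w') := by
  obtain ⟨k, hk0, ⟨u, l⟩, hp, a, b, hpos, ha, hb⟩ := h.exists_params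
  simp only at hpos ha hb
  have hk : (0 : ℝ) < k := by exact_mod_cast hk0
  set ε := ((k : ℝ) ^ 2)⁻¹ with hεdef
  set g : ℝ → ℝ := fun t => sqrt (G t) with hgdef
  have hg : ContDiff ℝ ∞ g := smooth_sqrtG h.hG h.posG
  set om : ℝ → ℝ := fun t => u + l * sin t with hom
  have homs : ContDiff ℝ ∞ om := contDiff_const.add (contDiff_const.mul contDiff_sin)
  set Y : ℝ → ℝ := fun t => yy E F G ε l t with hY
  have hYs : ContDiff ℝ ∞ Y := by
    refine ContDiff.sqrt ?_ fun t => (div_pos (hpos t) (h.posG t)).ne'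
    have hdg : ContDiff ℝ ∞ (deriv g) := (contDiff_infty_iff_deriv.1 hg).2
    refine ContDiff.div ?_ h.hG.1 fun t => (h.posG t).ne'
    refine ContDiff.sub (h.hE.1.sub ((h.hF.1.pow 2).div h.hG.1 fun t => (h.posG t).ne')) ?_
    exact contDiff_const.mul ((hdg.pow 2).add (h.hG.1.mul ((contDiff_const.mul contDiff_cos).pow 2)))
  have hYper : Function.Periodic Y (2 * π) := by
    intro t
    have hd : deriv (fun s => sqrt (G s)) (t + 2 * π) = deriv (fun s => sqrt (G s)) t := by
      rw [← deriv_comp_add_const]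
      congr 1
      funext s; rw [h.hG.2 s]
    simp only [hY, yy, dd, h.hE.2 t, h.hF.2 t, h.hG.2 t, hd, cos_periodic t]
  have hco : ∀ t, cos (om t) ≠ 0 := fun t => (cos_pos_angle hp t).ne'
  have hsi : ∀ t, sin (om t) ≠ 0 := fun t => (sin_pos_angle hp t).ne'
  set fa : ℝ → ℝ := fun t => (k : ℝ) * (F t / G t + sin (om t) / cos (om t) * Y t) with hfa
  set fb : ℝ → ℝ := fun t => (k : ℝ) * (F t / G t - cos (om t) / sin (om t) * Y t) with hfb
  have hFG : ContDiff ℝ ∞ fun t => F t / G t := h.hF.1.div h.hG.1 fun t => (h.posG t).ne'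
  have hfas : ContDiff ℝ ∞ fa :=
    contDiff_const.mul (hFG.add (((contDiff_sin.comp homs).div (contDiff_cos.comp homs) hco).mul hYs))
  have hfbs : ContDiff ℝ ∞ fb :=
    contDiff_const.mul (hFG.sub (((contDiff_cos.comp homs).div (contDiff_sin.comp homs) hsi).mul hYs))
  have homper : Function.Periodic om (2 * π) := fun t => by simp [hom, sin_periodic t]
  have hfap : Function.Periodic fa (2 * π) := fun t => by
    simp only [hfa, homper t, hYper t, h.hF.2 t, h.hG.2 t]
  have hfbp : Function.Periodic fb (2 * π) := fun t => by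
    simp only [hfb, homper t, hYper t, h.hF.2 t, h.hG.2 t]
  have hFGi : IntervalIntegrable (fun t => F t / G t) volume 0 (2 * π) :=
    hFG.continuous.intervalIntegrable _ _
  have hIa : ∫ t in (0)..(2 * π), fa t = 2 * π * a := by
    rw [← ha, hfa, intervalIntegral.integral_const_mul, phi1,
      ← intervalIntegral.integral_add hFGi (h.int1 ε hp _ _)]
    simp only [hY, hom, tan_eq_sin_div_cos]
  have hIb : ∫ t in (0)..(2 * π), fb t = 2 * π * b := by
    rw [← hb, hfb, intervalIntegral.integral_const_mul, phi2,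
      ← intervalIntegral.integral_sub hFGi (h.int2 ε hp _ _)]
    simp only [hY, hom, tan_eq_sin_div_cos, div_div_eq_mul_div]
    congr 1
    exact intervalIntegral.integral_congr fun t _ => by ring
  set r : ℝ → ℝ := fun t => g t / k * cos (om t) with hr
  set s : ℝ → ℝ := fun t => g t / k * sin (om t) with hs
  set α := phase fa
  set β := phase fb
  have hrs : ContDiff ℝ ∞ r := (hg.div_const _).mul (contDiff_cos.comp homs)
  have hss : ContDiff ℝ ∞ s := (hg.div_const _).mul (contDiff_sin.comp homs)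
  have has : ContDiff ℝ ∞ α := smooth_phase hfas
  have hbs : ContDiff ℝ ∞ β := smooth_phase hfbs
  refine ⟨immersion r s α β k, ?_, fun t θ => ⟨?_, ?_⟩, ?_⟩
  · refine (contDiff_piLp 2).2 fun i => ?_
    have hA : ContDiff ℝ ∞ fun x : ℝ × ℝ => (k : ℝ) * x.2 + α x.1 :=
      (contDiff_const.mul contDiff_snd).add (has.comp contDiff_fst)
    have hB : ContDiff ℝ ∞ fun x : ℝ × ℝ => (k : ℝ) * x.2 + β x.1 :=
      (contDiff_const.mul contDiff_snd).add (hbs.comp contDiff_fst)
    fin_cases i
    · simpa [immersion, Function.comp_def] using (hrs.comp contDiff_fst).mul (contDiff_cos.comp hA)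
    · simpa [immersion, Function.comp_def] using (hrs.comp contDiff_fst).mul (contDiff_sin.comp hA)
    · simpa [immersion, Function.comp_def] using (hss.comp contDiff_fst).mul (contDiff_cos.comp hB)
    · simpa [immersion, Function.comp_def] using (hss.comp contDiff_fst).mul (contDiff_sin.comp hB)
  · have hgp : g (t + 2 * π) = g t := by simp only [hgdef, h.hG.2 t]
    simp only [immersion, hr, hs, homper t, hgp, α, β, phase_add_period hfas.continuous hfap,
      phase_add_period hfbs.continuous hfbp, hIa, hIb]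
    have e1 : ∀ x : ℝ, (k : ℝ) * θ + (x + 2 * π * a) = (k * θ + x) + a * (2 * π) := fun x => by ring
    have e2 : ∀ x : ℝ, (k : ℝ) * θ + (x + 2 * π * b) = (k * θ + x) + b * (2 * π) := fun x => by ring
    simp only [e1, e2, cos_add_int_mul_two_pi, sin_add_int_mul_two_pi]
  · have e1 : ∀ x : ℝ, (k : ℝ) * (θ + 2 * π) + x = (k * θ + x) + (k : ℕ) * (2 * π) := fun x => by
      ring
    simp only [immersion, e1, cos_add_nat_mul_two_pi, sin_add_nat_mul_two_pi]
  · intro t θ v w v' w'
    have hg' : HasDerivAt g (deriv g t) t := (hg.differentiable (by simp)).differentiableAt.hasDerivAt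
    have hom' : HasDerivAt om (l * cos t) t := ((hasDerivAt_sin t).const_mul l).const_add u
    have hr' := (hg'.div_const (k : ℝ)).mul hom'.cos
    have hs' := (hg'.div_const (k : ℝ)).mul hom'.sin
    have hα' := hasDerivAt_phase hfas.continuous t
    have hβ' := hasDerivAt_phase hfbs.continuous t
    set rd := deriv g t / k * cos (om t) + g t / k * (-sin (om t) * (l * cos t)) with hrd
    set sd := deriv g t / k * sin (om t) + g t / k * (cos (om t) * (l * cos t)) with hsd
    have hfst : HasFDerivAt (fun x : ℝ × ℝ => x.1) (ContinuousLinearMap.fst ℝ ℝ ℝ) (t, θ) :=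
      hasFDerivAt_fst
    have hsnd : HasFDerivAt (fun x : ℝ × ℝ => x.2) (ContinuousLinearMap.snd ℝ ℝ ℝ) (t, θ) :=
      hasFDerivAt_snd
    have HR := hr'.comp_hasFDerivAt (t, θ) hfst
    have HS := hs'.comp_hasFDerivAt (t, θ) hfst
    have HA := (hsnd.const_mul (k : ℝ)).add (hα'.comp_hasFDerivAt (t, θ) hfst)
    have HB := (hsnd.const_mul (k : ℝ)).add (hβ'.comp_hasFDerivAt (t, θ) hfst)
    have H0 := HR.mul HA.cos
    have H1 := HR.mul HA.sin
    have H2 := HS.mul HB.cos
    have H3 := HS.mul HB.sin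
    have hd : DifferentiableAt ℝ (immersion r s α β k) (t, θ) := by
      refine (differentiableAt_piLp 2).2 fun i => ?_
      fin_cases i
      · refine (H0.differentiableAt.congr_of_eventuallyEq (Eventually.of_forall fun x => ?_))
        simp [immersion, hr, α]
      · refine (H1.differentiableAt.congr_of_eventuallyEq (Eventually.of_forall fun x => ?_))
        simp [immersion, hr, α]
      · refine (H2.differentiableAt.congr_of_eventuallyEq (Eventually.of_forall fun x => ?_))
        simp [immersion, hs, β]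
      · refine (H3.differentiableAt.congr_of_eventuallyEq (Eventually.of_forall fun x => ?_))
        simp [immersion, hs, β]
    have hpj : ∀ (i : Fin 4) {f : ℝ × ℝ → ℝ} {L : ℝ × ℝ →L[ℝ] ℝ}, HasFDerivAt f L (t, θ) →
        (∀ x, immersion r s α β k x i = f x) → ∀ z, fderiv ℝ (immersion r s α β k) (t, θ) z i = L z := by
      intro i f L hf he z
      have h1 := (PiLp.proj (𝕜 := ℝ) 2 (fun _ : Fin 4 => ℝ) i).hasFDerivAt.comp (t, θ) hd.hasFDerivAt
      have e : (PiLp.proj (𝕜 := ℝ) 2 (fun _ : Fin 4 => ℝ) i) ∘ immersion r s α β k = f := funext he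
      rw [e] at h1
      exact DFunLike.congr_fun (h1.unique hf) z
    have q0 := hpj 0 H0 (fun x => by simp [immersion, hr, α])
    have q1 := hpj 1 H1 (fun x => by simp [immersion, hr, α])
    have q2 := hpj 2 H2 (fun x => by simp [immersion, hs, β])
    have q3 := hpj 3 H3 (fun x => by simp [immersion, hs, β])
    rw [PiLp.inner_apply]
    simp only [Fin.sum_univ_four, RCLike.inner_apply, conj_trivial, q0, q1, q2, q3]
    simp only [Function.comp_apply, ContinuousLinearMap.add_apply, ContinuousLinearMap.smul_apply,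
      ContinuousLinearMap.coe_fst', ContinuousLinearMap.coe_snd', smul_eq_mul, Pi.add_apply, Pi.mul_apply]
    have hk1 := hk.ne'
    have hgne : G t ≠ 0 := (h.posG t).ne'
    have hY2 : Y t ^ 2 * G t = E t - F t ^ 2 / G t
        - ε * (deriv g t ^ 2 + G t * (l * cos t) ^ 2) := by
      simp only [hY, yy]
      rw [sq_sqrt (div_nonneg (hpos t).le (h.posG t).le), div_mul_cancel₀ _ hgne]
      rfl
    set A := (k : ℝ) * θ + phase fa t
    set B := (k : ℝ) * θ + phase fb t
    have hcA := sin_sq_add_cos_sq A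
    have hcB := sin_sq_add_cos_sq B
    have hcw := sin_sq_add_cos_sq (om t)
    have hgg : g t ^ 2 = G t := sq_sqrt (h.posG t).le
    have key : ∀ (X Z : ℝ) (x y x' y' : ℝ), sin X ^ 2 + cos X ^ 2 = 1 →
        (Z * (-(sin X) * x) + cos X * y) * (Z * (-(sin X) * x') + cos X * y')
          + (Z * (cos X * x) + sin X * y) * (Z * (cos X * x') + sin X * y')
          = Z ^ 2 * (x * x') + y * y' := by
      intro X Z x y x' y' hX
      linear_combination (Z ^ 2 * (x * x') + y * y') * hX
    calc _ = ((g t / k * cos (om t)) ^ 2 * ((k * v' + fa t * v) * (k * w' + fa t * w))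
          + rd * v * (rd * w))
          + ((g t / k * sin (om t)) ^ 2 * ((k * v' + fb t * v) * (k * w' + fb t * w))
          + sd * v * (sd * w)) := by
          rw [← key A _ _ _ _ _ hcA, ← key B _ _ _ _ _ hcB, hrd, hsd]
          ring
      _ = _ := by
          have hy : ∀ P : ℝ, P * Y t ^ 2 * G t = P * (E t - F t ^ 2 / G t
              - ε * (deriv g t ^ 2 + G t * (l * cos t) ^ 2)) := fun P => by rw [mul_assoc, hY2]
          have e1 : cos (om t) ^ 2 * fa t + sin (om t) ^ 2 * fb t = k * (F t / G t) := by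
            simp only [hfa, hfb]
            field_simp [hco t, hsi t]
            linear_combination F t * hcw
          have e2 : cos (om t) ^ 2 * fa t ^ 2 + sin (om t) ^ 2 * fb t ^ 2
              = k ^ 2 * ((F t / G t) ^ 2 + Y t ^ 2) := by
            simp only [hfa, hfb]
            field_simp [hco t, hsi t]
            linear_combination (F t ^ 2 + G t ^ 2 * Y t ^ 2) * hcw
          have e3 : rd ^ 2 + sd ^ 2 = ε * (deriv g t ^ 2 + G t * (l * cos t) ^ 2) := by
            rw [← hgg, hrd, hsd, hεdef]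
            field_simp
            linear_combination (deriv g t ^ 2 + g t ^ 2 * l ^ 2 * cos t ^ 2) * hcw
          have e4 : (g t / k) ^ 2 * (k ^ 2 * ((F t / G t) ^ 2 + Y t ^ 2)) + (rd ^ 2 + sd ^ 2) = E t := by
            rw [e3, div_pow, hgg]
            field_simp at hY2 ⊢
            linear_combination hY2
          have e5 : (g t / k) ^ 2 * (k * (k * (F t / G t))) = F t := by
            rw [div_pow, hgg]; field_simp
          have e6 : (g t / k) ^ 2 * k ^ 2 = G t := by
            rw [div_pow, hgg]; field_simp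
          linear_combination (v * w) * e4 + (v * w' + v' * w) * e5 + (v' * w') * e6
            + (g t / k) ^ 2 * (v * w) * e2 + (g t / k) ^ 2 * k * (v * w' + v' * w) * e1
            + (g t / k) ^ 2 * k ^ 2 * (v' * w') * hcw

end Vale.Agent.P205
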